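import Vale.Agent.P021Z.Key.Poly

/-!
The structure lemma: a nonzero prime `q` of `ℂ[Y, X_1, …, X_m]` with `Y ∉ q` for which the
multiplicity inequality holds, with separated weights, contains `Y - c`, and either contains
some `X_l - c'` or is contained in the ideal generated by `Y - c`.
-/

namespace Vale.Agent.P021Z.Key

open MvPolynomial
open Finsupp (single)

/-- One step of Gaussian elimination modulo a prime. -/
theorem elim_step {ι A : Type*} [CommRing A] [Algebra ℂ A] [DecidableEq ι]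
    (D : ι → Derivation ℂ A A) (q : Ideal A) [hq : q.IsPrime] (I : Finset ι) (g : ι → A)
    (hg : ∀ k ∈ I, g k ∈ q) (hd : ∀ k ∈ I, D k (g k) ∉ q) (a : ι) (ha : a ∈ I)
    (hcol : ∀ b ∈ I, b ≠ a → D b (g a) ∈ q) :
    ∃ g' : ι → A, (∀ k ∈ I, g' k ∈ q) ∧ (∀ k ∈ I, D k (g' k) ∉ q) ∧
      (∀ k ∈ I, k ≠ a → D a (g' k) ∈ q) ∧
      (∀ b ∈ I, ∀ k ∈ I, b ≠ k → D b (g k) ∈ q → D b (g' k) ∈ q) := by
  let g' : ι → A := fun k => if k = a then g a else D a (g a) * g k - D a (g k) * g a
  have hga : g' a = g a := by simp [g']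
  have hgk : ∀ k, k ≠ a → g' k = D a (g a) * g k - D a (g k) * g a := by
    intro k hk; simp [g', hk]
  have hcong : ∀ b, ∀ k ∈ I, k ≠ a →
      D b (g' k) - (D a (g a) * D b (g k) - D a (g k) * D b (g a)) ∈ q := by
    intro b k hk hka
    rw [hgk k hka, map_sub, Derivation.leibniz, Derivation.leibniz]
    have h1 := q.mul_mem_right (D b (D a (g a))) (hg k hk)
    have h2 := q.mul_mem_right (D b (D a (g k))) (hg a ha)
    convert sub_mem h1 h2 using 1
    simp only [smul_eq_mul]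
    ring
  refine ⟨g', ?_, ?_, ?_, ?_⟩
  · intro k hk
    by_cases hka : k = a
    · rw [hka, hga]; exact hg a ha
    · rw [hgk k hka]
      exact sub_mem (q.mul_mem_left _ (hg k hk)) (q.mul_mem_left _ (hg a ha))
  · intro k hk
    by_cases hka : k = a
    · rw [hka, hga]; exact hd a ha
    · intro hcon
      have h1 := hcong k k hk hka
      have h2 := q.mul_mem_left (D a (g k)) (hcol k hk hka)
      have h3 : D a (g a) * D k (g k) ∈ q := by
        convert add_mem (sub_mem hcon h1) h2 using 1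
        ring
      rcases hq.mem_or_mem h3 with h | h
      · exact hd a ha h
      · exact hd k hk h
  · intro k hk hka
    convert hcong a k hk hka using 1
    ring
  · intro b hb k hk hbk h
    by_cases hka : k = a
    · rw [hka, hga]; rwa [hka] at h
    · by_cases hba : b = a
      · subst hba
        convert hcong b k hk hka using 1
        ring
      · have h1 := hcong b k hk hka
        have h2 := q.mul_mem_left (D a (g k)) (hcol b hb hba)
        have h3 := q.mul_mem_left (D a (g a)) h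
        convert sub_mem (add_mem h1 h3) h2 using 1
        ring

/-- The numerical contradiction from separation of the weights. -/
theorem sep_contra {n : ℕ} (w v : Fin (n + 1) → ℝ) (c Θ : ℝ) (hw : ∀ i, 0 < w i)
    (hv0 : ∀ i, 0 ≤ v i) (hv : ∀ i, v i ≤ Θ * w i) (hc : 1 ≤ c) (hΘ : 1 ≤ Θ)
    (J : Finset (Fin (n + 1))) (i l : Fin (n + 1)) (hi : i ∉ J) (hl : l ∈ J)
    (hsep : c ^ (n + 1) * Θ ^ n * v i < w l)
    (h : ∏ k ∈ J, w k ≤ c ^ J.card * ∏ k ∈ insert i (J.erase l), v k) : False := by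
  have hi' : i ∉ J.erase l := fun h => hi (Finset.mem_of_mem_erase h)
  rw [Finset.prod_insert hi', ← Finset.mul_prod_erase J w hl] at h
  have hP : 0 < ∏ k ∈ J.erase l, w k := Finset.prod_pos fun k _ => hw k
  have h1 : ∏ k ∈ J.erase l, v k ≤ Θ ^ (J.erase l).card * ∏ k ∈ J.erase l, w k := by
    rw [← Finset.prod_const, ← Finset.prod_mul_distrib]
    exact Finset.prod_le_prod (fun k _ => hv0 k) fun k _ => hv k
  have hJ : J.card ≤ n + 1 := by simpa using Finset.card_le_univ J
  have h2 : Θ ^ (J.erase l).card ≤ Θ ^ n :=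
    pow_le_pow_right₀ hΘ (by have := Finset.card_erase_add_one hl; omega)
  have h3 : c ^ J.card ≤ c ^ (n + 1) := pow_le_pow_right₀ hc hJ
  have h4 : w l * ∏ k ∈ J.erase l, w k ≤
      (c ^ (n + 1) * Θ ^ n * v i) * ∏ k ∈ J.erase l, w k := by
    calc w l * ∏ k ∈ J.erase l, w k ≤ c ^ J.card * (v i * ∏ k ∈ J.erase l, v k) := h
      _ ≤ c ^ (n + 1) * (v i * (Θ ^ n * ∏ k ∈ J.erase l, w k)) := by
        have hvi := hv0 i
        have : 0 ≤ ∏ k ∈ J.erase l, v k := Finset.prod_nonneg fun k _ => hv0 k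
        gcongr
        exact h1.trans (by gcongr)
      _ = (c ^ (n + 1) * Θ ^ n * v i) * ∏ k ∈ J.erase l, w k := by ring
  exact absurd (le_of_mul_le_mul_right h4 hP) (not_le.2 hsep)

/-- The structure lemma. -/
theorem struct {m : ℕ}
    (D : Fin (m + 1) → Derivation ℂ (MvPolynomial (Fin (m + 1)) ℂ) (MvPolynomial (Fin (m + 1)) ℂ))
    (hD0 : ∀ f, D 0 f = X 0 * pderiv 0 f + ∑ i : Fin m, pderiv i.succ f)
    (hDs : ∀ (i : Fin m) f, D i.succ f = pderiv i.succ f)
    (q : Ideal (MvPolynomial (Fin (m + 1)) ℂ)) [hq : q.IsPrime] (hq0 : q ≠ ⊥) (hY : X 0 ∉ q)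
    (w v : Fin (m + 1) → ℝ) (c Θ : ℝ) (hw : ∀ i, 0 < w i)
    (hv0 : ∀ i, 0 ≤ v i) (hv : ∀ i, v i ≤ Θ * w i) (hc : 1 ≤ c) (hΘ : 1 ≤ Θ)
    (hsep : ∀ i l, i < l → c ^ (m + 1) * Θ ^ m * v i < w l)
    (hmult : ∀ (B I : Finset (Fin (m + 1))) (g : Fin (m + 1) → MvPolynomial (Fin (m + 1)) ℂ),
      (∀ f ∈ q, f.vars ⊆ B → f = 0) →
      (∀ l ∉ B, ∃ f ∈ q, f ≠ 0 ∧ f.vars ⊆ insert l B) →
      I.card = Bᶜ.card → (∀ i ∈ I, g i ∈ q) → (∀ i ∈ I, D i (g i) ∉ q) →
      (∀ i ∈ I, ∀ k ∈ I, i ≠ k → D i (g k) ∈ q) →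
      ∏ l ∈ Bᶜ, w l ≤ c ^ Bᶜ.card * ∏ i ∈ I, v i) :
    ∃ c0 : ℂ, X 0 - C c0 ∈ q ∧
      ((∃ (l : Fin m) (c1 : ℂ), X l.succ - C c1 ∈ q) ∨ q ≤ Ideal.span {X 0 - C c0}) := by
  classical
  obtain ⟨B, hB, hgr⟩ := exists_greedy q hq.ne_top
  let mo : MonomialOrder (Fin (m + 1)) := MonomialOrder.lex
  have hex : ∀ l, l ∉ B → ∃ f ∈ q, f ≠ 0 ∧ f.vars ⊆ insert l (B.filter (· < l)) ∧
      ∀ g ∈ q, g.vars ⊆ insert l (B.filter (· < l)) →
        (∀ d ∈ g.support, mo.toSyn d < mo.toSyn (mo.degree f)) → g = 0 :=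
    fun l hl => exists_least mo q _ (hgr l hl)
  choose! f hfq hf0 hfv hfmin using hex
  -- derivatives that lie in `q` vanish
  have hder : ∀ l ∉ B, ∀ a, pderiv a (f l) ∈ q → pderiv a (f l) = 0 := fun l hl a h =>
    hfmin l hl _ h ((vars_pderiv_subset _ _).trans (hfv l hl))
      fun d hd => toSyn_lt_of_mem_support_pderiv mo hd
  have hdiag : ∀ l ∉ B, pderiv l (f l) ∉ q := by
    intro l hl h
    have h1 := notMem_vars_of_pderiv_eq_zero (hder l hl l h)
    refine hf0 l hl (hB _ (hfq l hl) fun i hi => ?_)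
    rcases Finset.mem_insert.1 (hfv l hl hi) with rfl | h2
    · exact absurd hi h1
    · exact (Finset.mem_filter.1 h2).1
  have hoff : ∀ l ∉ B, ∀ a, a ≠ l → ¬ (a ∈ B ∧ a < l) → pderiv a (f l) = 0 := by
    intro l hl a hal ha
    refine pderiv_eq_zero_of_notMem_vars fun h => ?_
    rcases Finset.mem_insert.1 (hfv l hl h) with h2 | h2
    · exact hal h2
    · exact ha (Finset.mem_filter.1 h2)
  have hDne : ∀ a, a ≠ 0 → ∀ g, D a g = pderiv a g := by
    intro a ha g
    obtain ⟨i, rfl⟩ := Fin.exists_succ_eq.2 ha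
    exact hDs i g
  have hDdiag : ∀ l ∉ B, D l (f l) ∉ q := by
    intro l hl
    by_cases hl0 : l = 0
    · subst hl0
      rw [hD0, Finset.sum_eq_zero, add_zero]
      · intro h
        rcases hq.mem_or_mem h with h | h
        · exact hY h
        · exact hdiag 0 hl h
      · intro i _
        exact hoff 0 hl _ (Fin.succ_ne_zero i) (fun h => absurd h.2 (Fin.not_lt_zero _))
    · rw [hDne l hl0]; exact hdiag l hl
  -- the exchange step
  have hexch : ∀ l ∉ B, ∀ i ∈ B, i < l → D i (f l) ∈ q := by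
    intro l hl i hi hil
    by_contra hcon
    have hl0 : l ≠ 0 := by rintro rfl; exact absurd hil (Fin.not_lt_zero _)
    have hlJ : l ∈ Bᶜ := Finset.mem_compl.2 hl
    have hiJ : i ∉ Bᶜ := by simpa using hi
    set I : Finset (Fin (m + 1)) := insert i (Bᶜ.erase l) with hI
    have hmemI : ∀ k ∈ I, k ≠ i → k ∉ B ∧ k ≠ l := by
      intro k hk hki
      rcases Finset.mem_insert.1 hk with h | h
      · exact absurd h hki
      · exact ⟨Finset.mem_compl.1 (Finset.mem_of_mem_erase h), Finset.ne_of_mem_erase h⟩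
    have hiI : i ∈ I := Finset.mem_insert_self _ _
    let g : Fin (m + 1) → MvPolynomial (Fin (m + 1)) ℂ := fun k => if k = i then f l else f k
    have hgi : g i = f l := by simp [g]
    have hgk : ∀ k, k ≠ i → g k = f k := fun k hk => by simp [g, hk]
    have hg1 : ∀ k ∈ I, g k ∈ q := by
      intro k hk
      by_cases hki : k = i
      · rw [hki, hgi]; exact hfq l hl
      · rw [hgk k hki]; exact hfq k (hmemI k hk hki).1
    have hg2 : ∀ k ∈ I, D k (g k) ∉ q := by
      intro k hk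
      by_cases hki : k = i
      · rw [hki, hgi]; exact hcon
      · rw [hgk k hki]; exact hDdiag k (hmemI k hk hki).1
    have hg3 : ∀ b ∈ I, ∀ k ∈ I, b ≠ k → b ≠ i → b ≠ 0 → D b (g k) ∈ q := by
      intro b hb k hk hbk hbi hb0
      obtain ⟨hb1, hb2⟩ := hmemI b hb hbi
      rw [hDne b hb0]
      by_cases hki : k = i
      · rw [hki, hgi, hoff l hl b hb2 (fun h => hb1 h.1)]; exact q.zero_mem
      · rw [hgk k hki, hoff k (hmemI k hk hki).1 b hbk (fun h => hb1 h.1)]; exact q.zero_mem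
    -- first clear row `0` when `0 ∉ B`
    have step1 : ∃ g' : Fin (m + 1) → MvPolynomial (Fin (m + 1)) ℂ, (∀ k ∈ I, g' k ∈ q) ∧
        (∀ k ∈ I, D k (g' k) ∉ q) ∧
        (∀ b ∈ I, ∀ k ∈ I, b ≠ k → b ≠ i → D b (g' k) ∈ q) := by
      by_cases h0 : (0 : Fin (m + 1)) ∈ I ∧ (0 : Fin (m + 1)) ≠ i
      · obtain ⟨g', h1, h2, h3, h4⟩ := elim_step D q I g hg1 hg2 0 h0.1 (by
          intro b hb hb0
          have h0B := (hmemI 0 h0.1 h0.2).1
          rw [hgk 0 h0.2, hDne b hb0,
            hoff 0 h0B b hb0 (fun h => absurd h.2 (Fin.not_lt_zero _))]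
          exact q.zero_mem)
        refine ⟨g', h1, h2, fun b hb k hk hbk hbi => ?_⟩
        by_cases hb0 : b = 0
        · subst hb0; exact h3 k hk hbk.symm
        · exact h4 b hb k hk hbk (hg3 b hb k hk hbk hbi hb0)
      · refine ⟨g, hg1, hg2, fun b hb k hk hbk hbi => hg3 b hb k hk hbk hbi ?_⟩
        rintro rfl
        exact h0 ⟨hb, hbi⟩
    obtain ⟨g', h1, h2, h3⟩ := step1
    obtain ⟨g'', h4, h5, h6, h7⟩ := elim_step D q I g' h1 h2 i hiI
      (fun b hb hbi => h3 b hb i hiI hbi hbi)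
    have hcard : I.card = Bᶜ.card := by
      rw [hI, Finset.card_insert_of_notMem (fun h => hiJ (Finset.mem_of_mem_erase h)),
        Finset.card_erase_add_one hlJ]
    have := hmult B I g'' hB (fun l hl => ⟨f l, hfq l hl, hf0 l hl,
      (hfv l hl).trans (Finset.insert_subset_insert _ (Finset.filter_subset _ _))⟩) hcard h4 h5
      (fun b hb k hk hbk => by
        by_cases hbi : b = i
        · subst hbi; exact h6 k hk hbk.symm
        · exact h7 b hb k hk hbk (h3 b hb k hk hbk hbi))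
    exact sep_contra w v c Θ hw hv0 hv hc hΘ Bᶜ i l hiJ hlJ (hsep i l hil) this
  -- so `f l` only involves `x_0` and `x_l`
  have hvars : ∀ l ∉ B, ∀ a, a ≠ l → a ≠ 0 → pderiv a (f l) = 0 := by
    intro l hl a hal ha0
    by_cases ha : a ∈ B ∧ a < l
    · refine hder l hl a ?_
      rw [← hDne a ha0]
      exact hexch l hl a ha.1 ha.2
    · exact hoff l hl a hal ha
  have h0B : (0 : Fin (m + 1)) ∉ B := by
    intro h0
    have hne : ∃ l, l ∉ B := by
      by_contra hcon
      push Not at hcon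
      apply hq0
      rw [eq_bot_iff]
      intro g hg
      exact hB g hg fun i _ => hcon i
    obtain ⟨l, hl⟩ := hne
    have hl0 : l ≠ 0 := by rintro rfl; exact hl h0
    have h1 := hexch l hl 0 h0 (Fin.pos_iff_ne_zero.2 hl0)
    have h2 : D 0 (f l) = X 0 * pderiv 0 (f l) + pderiv l (f l) := by
      obtain ⟨l', rfl⟩ := Fin.exists_succ_eq.2 hl0
      rw [hD0, Finset.sum_eq_single l']
      · intro b _ hb
        exact hvars _ hl _ (fun h => hb (Fin.succ_injective _ h)) (Fin.succ_ne_zero b)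
      · simp
    set h : ℕ := mo.degree (f l) 0 with hh
    have h3 : X 0 * pderiv 0 (f l) + pderiv l (f l) - C (h : ℂ) * f l = 0 := by
      refine hfmin l hl _ (sub_mem (h2 ▸ h1) (q.mul_mem_left _ (hfq l hl))) ?_ ?_
      · have hs : ∀ g : MvPolynomial (Fin (m + 1)) ℂ,
            g.vars ⊆ insert l (B.filter (· < l)) ↔
              g ∈ supported ℂ (↑(insert l (B.filter (· < l))) : Set (Fin (m + 1))) := by
          intro g; rw [mem_supported, Finset.coe_subset]
        rw [hs]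
        refine sub_mem (add_mem (mul_mem (X_mem_supported.2 ?_) ?_) ?_)
          (mul_mem (Subalgebra.algebraMap_mem _ _) ?_)
        · exact Finset.mem_coe.2 (Finset.mem_insert_of_mem
            (Finset.mem_filter.2 ⟨h0, Fin.pos_iff_ne_zero.2 hl0⟩))
        · exact (hs _).1 ((vars_pderiv_subset _ _).trans (hfv l hl))
        · exact (hs _).1 ((vars_pderiv_subset _ _).trans (hfv l hl))
        · exact (hs _).1 (hfv l hl)
      · intro d hd
        rw [mem_support_iff, coeff_sub, coeff_add, coeff_X_mul_pderiv, coeff_C_mul] at hd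
        by_cases hd1 : d ∈ (pderiv l (f l)).support
        · exact toSyn_lt_of_mem_support_pderiv mo hd1
        · rw [notMem_support_iff.1 hd1, add_zero, ← sub_mul] at hd
          have hd2 : d ∈ (f l).support := mem_support_iff.2 (right_ne_zero_of_mul hd)
          refine lt_of_le_of_ne (mo.le_degree hd2) fun he => ?_
          have hd3 : d = mo.degree (f l) := mo.toSyn.injective he
          apply left_ne_zero_of_mul hd
          rw [hh, hd3, sub_self]
    have h4 := pderiv_eq_zero_of_eigen hl0.symm h (sub_eq_zero.1 h3)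
    exact hdiag l hl (h4 ▸ q.zero_mem)
  have hsingle : ∀ l ∉ B, (f l).vars ⊆ {l} := by
    intro l hl a ha
    rw [Finset.mem_singleton]
    by_contra hal
    have ha0 : a ≠ 0 := by
      rintro rfl
      rcases Finset.mem_insert.1 (hfv l hl ha) with h | h
      · exact hal h
      · exact h0B (Finset.mem_filter.1 h).1
    exact notMem_vars_of_pderiv_eq_zero (hvars l hl a hal ha0) ha
  obtain ⟨c0, hc0⟩ := exists_X_sub_C_mem (hfq 0 h0B) (hf0 0 h0B) (hsingle 0 h0B)
  refine ⟨c0, hc0, ?_⟩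
  by_cases hall : ∀ l : Fin m, l.succ ∈ B
  · right
    intro g hg
    obtain ⟨g', hg1, hg2⟩ := exists_elim 0 c0 g
    have hg3 : g' ∈ q := by
      have := sub_mem hg ((Ideal.span_singleton_le_iff_mem q).2 hc0 hg2)
      simpa using this
    have hg4 : g' = 0 := by
      refine hB g' hg3 fun a ha => ?_
      have ha0 : a ≠ 0 := by rintro rfl; exact hg1 ha
      obtain ⟨i, rfl⟩ := Fin.exists_succ_eq.2 ha0
      exact hall i
    simpa [hg4] using hg2
  · left
    push Not at hall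
    obtain ⟨l, hl⟩ := hall
    obtain ⟨c1, hc1⟩ := exists_X_sub_C_mem (hfq _ hl) (hf0 _ hl) (hsingle _ hl)
    exact ⟨l, c1, hc1⟩

end Vale.Agent.P021Z.Key
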