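import Mathlib.RingTheory.MvPolynomial.MonomialOrder
import Mathlib.Algebra.MvPolynomial.PDeriv
import Mathlib.Algebra.MvPolynomial.Supported
import Mathlib.Analysis.Complex.Polynomial.Basic
import Mathlib.RingTheory.KrullDimension.Polynomial
import Mathlib.RingTheory.KrullDimension.Field
import Mathlib.RingTheory.Ideal.Height

/-!
Elementary facts on polynomial rings used in the key step of the zero estimate:
least elements for a monomial order, greedy transcendence bases of variables modulo a prime,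
and the pigeonhole principle for chains of minimal primes.
-/

namespace Vale.Agent.P021Z.Key

open MvPolynomial
open Finsupp (single)

section basic

variable {σ : Type*}

theorem mem_support_pderiv {f : MvPolynomial σ ℂ} {a : σ} {d : σ →₀ ℕ}
    (h : d ∈ (pderiv a f).support) : d + single a 1 ∈ f.support := by
  rw [mem_support_iff] at h ⊢
  rw [coeff_pderiv] at h
  exact left_ne_zero_of_mul h

theorem vars_pderiv_subset (f : MvPolynomial σ ℂ) (a : σ) : (pderiv a f).vars ⊆ f.vars := by
  intro i hi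
  rw [mem_vars_iff_mem_support] at hi ⊢
  obtain ⟨d, hd, hid⟩ := hi
  refine ⟨_, mem_support_pderiv hd, ?_⟩
  rw [Finsupp.mem_support_iff] at hid ⊢
  simp only [Finsupp.coe_add, Pi.add_apply]
  omega

theorem notMem_vars_of_pderiv_eq_zero {f : MvPolynomial σ ℂ} {a : σ} (h : pderiv a f = 0) :
    a ∉ f.vars := by
  classical
  intro ha
  rw [mem_vars_iff_mem_support] at ha
  obtain ⟨d, hd, had⟩ := ha
  rw [Finsupp.mem_support_iff] at had
  have h1 := congrArg (coeff (d - single a 1)) h
  rw [coeff_pderiv, coeff_zero, Finsupp.sub_add_single_one_cancel had] at h1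
  rcases mul_eq_zero.1 h1 with h2 | h2
  · exact (mem_support_iff.1 hd) h2
  · exact Nat.cast_add_one_ne_zero _ h2

theorem coeff_X_mul_pderiv (f : MvPolynomial σ ℂ) (a : σ) (d : σ →₀ ℕ) :
    coeff d (X a * pderiv a f) = (d a : ℂ) * coeff d f := by
  classical
  induction f using MvPolynomial.induction_on' with
  | add p q hp hq => simp only [map_add, mul_add, coeff_add, hp, hq]
  | monomial n c =>
    rw [X_mul_pderiv_monomial, coeff_smul, coeff_monomial]
    by_cases h : n = d
    · subst h; simp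
    · simp [h]

/-- If `(x_a ∂_a + ∂_b) f = h f` with `a ≠ b`, then `∂_b f = 0`. -/
theorem pderiv_eq_zero_of_eigen {f : MvPolynomial σ ℂ} {a b : σ} (hab : a ≠ b) (h : ℕ)
    (hf : X a * pderiv a f + pderiv b f = C (h : ℂ) * f) : pderiv b f = 0 := by
  classical
  have key : ∀ d ∈ f.support, d a = h := by
    by_contra hcon
    push Not at hcon
    have hne : (f.support.filter (fun d => d a ≠ h)).Nonempty := by
      obtain ⟨d, hd, hd'⟩ := hcon
      exact ⟨d, Finset.mem_filter.2 ⟨hd, hd'⟩⟩
    obtain ⟨d, hd, hmax⟩ := Finset.exists_max_image _ (fun d : σ →₀ ℕ => d b) hne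
    rw [Finset.mem_filter] at hd
    have h1 := congrArg (coeff d) hf
    rw [coeff_add, coeff_X_mul_pderiv, coeff_pderiv, coeff_C_mul] at h1
    have h2 : coeff (d + single b 1) f = 0 := by
      by_contra h3
      have := hmax (d + single b 1) (Finset.mem_filter.2 ⟨mem_support_iff.2 h3, by
        simpa [Finsupp.single_apply, hab.symm] using hd.2⟩)
      simp at this
    rw [h2, zero_mul, add_zero] at h1
    have h4 := mul_right_cancel₀ (mem_support_iff.1 hd.1) h1
    exact hd.2 (by exact_mod_cast h4)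
  have h5 : X a * pderiv a f = C (h : ℂ) * f := by
    ext d
    rw [coeff_X_mul_pderiv, coeff_C_mul]
    by_cases hd : d ∈ f.support
    · rw [key d hd]
    · rw [notMem_support_iff.1 hd, mul_zero, mul_zero]
  rw [h5] at hf
  simpa using hf

/-- A prime containing a nonzero polynomial in the single variable `a` contains `x_a - c`. -/
theorem exists_X_sub_C_mem {q : Ideal (MvPolynomial σ ℂ)} [hq : q.IsPrime]
    {f : MvPolynomial σ ℂ} {a : σ} (hf : f ∈ q) (hf0 : f ≠ 0) (hv : f.vars ⊆ {a}) :
    ∃ c : ℂ, X a - C c ∈ q := by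
  have h1 : f ∈ supported ℂ ({a} : Set σ) := by
    rw [mem_supported]
    intro i hi
    simpa using hv hi
  rw [supported_eq_adjoin_X, Set.image_singleton, Algebra.adjoin_singleton_eq_range_aeval] at h1
  obtain ⟨p, hp⟩ := h1
  have hp' : Polynomial.aeval (X a : MvPolynomial σ ℂ) p = f := hp
  have hp0 : p ≠ 0 := by
    rintro rfl
    exact hf0 (by rw [← hp', map_zero])
  have halg : IsAlgebraic ℂ (Ideal.Quotient.mkₐ ℂ q (X a)) := by
    refine ⟨p, hp0, ?_⟩
    rw [Polynomial.aeval_algHom_apply, hp']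
    exact Ideal.Quotient.eq_zero_iff_mem.2 hf
  have hint := halg.isIntegral
  have hdeg := IsAlgClosed.degree_eq_one_of_irreducible ℂ (minpoly.irreducible hint)
  obtain ⟨c, hc⟩ := minpoly.mem_range_of_degree_eq_one ℂ _ hdeg
  refine ⟨c, ?_⟩
  rw [← Ideal.Quotient.eq_zero_iff_mem, map_sub, sub_eq_zero]
  exact hc.symm

/-- Modulo `x_a - c` every polynomial is congruent to one that does not involve `x_a`. -/
theorem exists_elim (a : σ) (c : ℂ) (f : MvPolynomial σ ℂ) :
    ∃ g : MvPolynomial σ ℂ, a ∉ g.vars ∧ f - g ∈ Ideal.span {X a - C c} := by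
  classical
  have : ∃ g ∈ supported ℂ ({a}ᶜ : Set σ), f - g ∈ Ideal.span {X a - C c} := by
    induction f using MvPolynomial.induction_on with
    | C r => exact ⟨C r, Subalgebra.algebraMap_mem _ r, by simp⟩
    | add p q hp hq =>
      obtain ⟨g, hg, hg'⟩ := hp
      obtain ⟨k, hk, hk'⟩ := hq
      refine ⟨g + k, add_mem hg hk, ?_⟩
      have := add_mem hg' hk'
      convert this using 1
      ring
    | mul_X p i hp =>
      obtain ⟨g, hg, hg'⟩ := hp
      by_cases hi : i = a
      · subst hi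
        refine ⟨g * C c, mul_mem hg (Subalgebra.algebraMap_mem _ c), ?_⟩
        have h1 := Ideal.mul_mem_right (X i) _ hg'
        have h2 : g * (X i - C c) ∈ Ideal.span {(X i - C c : MvPolynomial σ ℂ)} :=
          Ideal.mul_mem_left _ _ (Ideal.subset_span rfl)
        convert add_mem h1 h2 using 1
        ring
      · refine ⟨g * X i, mul_mem hg (X_mem_supported.2 hi), ?_⟩
        convert Ideal.mul_mem_right (X i) _ hg' using 1
        ring
  obtain ⟨g, hg, hg'⟩ := this
  refine ⟨g, fun h => ?_, hg'⟩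
  exact (mem_supported.1 hg) h rfl

/-- Among the nonzero members of `q` in the variables `S` there is one with least leading
monomial. -/
theorem exists_least (mo : MonomialOrder σ) (q : Ideal (MvPolynomial σ ℂ)) (S : Finset σ)
    (h : ∃ f ∈ q, f ≠ 0 ∧ f.vars ⊆ S) :
    ∃ f ∈ q, f ≠ 0 ∧ f.vars ⊆ S ∧ ∀ g ∈ q, g.vars ⊆ S →
      (∀ d ∈ g.support, mo.toSyn d < mo.toSyn (mo.degree f)) → g = 0 := by
  obtain ⟨f, hf, hmin⟩ := (wellFounded_lt (α := mo.syn)).has_min
    ((fun f => mo.toSyn (mo.degree f)) '' {f | f ∈ q ∧ f ≠ 0 ∧ f.vars ⊆ S})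
    (by obtain ⟨f, h1, h2, h3⟩ := h; exact ⟨_, f, ⟨h1, h2, h3⟩, rfl⟩)
  obtain ⟨f, ⟨h1, h2, h3⟩, rfl⟩ := hf
  refine ⟨f, h1, h2, h3, fun g hg hgv hlt => ?_⟩
  by_contra hg0
  exact hmin _ ⟨g, ⟨hg, hg0, hgv⟩, rfl⟩ (hlt _ (mo.degree_mem_support hg0))

theorem toSyn_lt_of_mem_support_pderiv (mo : MonomialOrder σ) {f : MvPolynomial σ ℂ} {a : σ}
    {d : σ →₀ ℕ} (h : d ∈ (pderiv a f).support) : mo.toSyn d < mo.toSyn (mo.degree f) := by
  have h1 := mo.le_degree (mem_support_pderiv h)
  refine lt_of_lt_of_le (mo.toSyn_strictMono ?_) h1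
  refine lt_add_of_pos_right _ ?_
  rw [pos_iff_ne_zero]
  simp

end basic

/-- Greedy choice of a maximal set of variables that are independent modulo a proper ideal. -/
theorem exists_greedy {n : ℕ} (q : Ideal (MvPolynomial (Fin n) ℂ)) (hq : q ≠ ⊤) :
    ∃ B : Finset (Fin n), (∀ f ∈ q, f.vars ⊆ B → f = 0) ∧
      ∀ l ∉ B, ∃ f ∈ q, f ≠ 0 ∧ f.vars ⊆ insert l (B.filter (· < l)) := by
  classical
  have main : ∀ k : ℕ, ∃ B : Finset (Fin n), (∀ i ∈ B, (i : ℕ) < k) ∧
      (∀ f ∈ q, f.vars ⊆ B → f = 0) ∧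
      ∀ l ∉ B, (l : ℕ) < k → ∃ f ∈ q, f ≠ 0 ∧ f.vars ⊆ insert l (B.filter (· < l)) := by
    intro k
    induction k with
    | zero =>
      refine ⟨∅, by simp, fun f hf hv => ?_, by simp⟩
      rw [Finset.subset_empty, vars_eq_empty_iff_eq_C] at hv
      by_contra h0
      have hc : coeff 0 f ≠ 0 := by
        intro h; rw [h, C_0] at hv; exact h0 hv
      apply hq
      rw [hv] at hf
      exact Ideal.eq_top_of_isUnit_mem _ hf ((IsUnit.mk0 _ hc).map C)
    | succ k ih =>
      obtain ⟨B, hB1, hB2, hB3⟩ := ih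
      by_cases hk : k < n
      · let l0 : Fin n := ⟨k, hk⟩
        have hfil : B.filter (· < l0) = B :=
          Finset.filter_true_of_mem fun i hi => hB1 i hi
        by_cases hind : ∀ f ∈ q, f.vars ⊆ insert l0 B → f = 0
        · refine ⟨insert l0 B, ?_, hind, ?_⟩
          · intro i hi
            rcases Finset.mem_insert.1 hi with rfl | hi
            · exact Nat.lt_succ_self _
            · exact (hB1 i hi).trans (Nat.lt_succ_self _)
          · intro l hl hlk
            rw [Finset.mem_insert, not_or] at hl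
            have hlk' : (l : ℕ) < k := by
              have : (l : ℕ) ≠ k := fun h => hl.1 (Fin.ext h)
              omega
            obtain ⟨f, h1, h2, h3⟩ := hB3 l hl.2 hlk'
            refine ⟨f, h1, h2, h3.trans (Finset.insert_subset_insert _ ?_)⟩
            exact Finset.filter_subset_filter _ (Finset.subset_insert _ _)
        · refine ⟨B, fun i hi => (hB1 i hi).trans (Nat.lt_succ_self _), hB2, ?_⟩
          intro l hl hlk
          by_cases hl0 : l = l0
          · subst hl0
            push Not at hind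
            obtain ⟨f, h1, h2, h3⟩ := hind
            exact ⟨f, h1, h3, by rwa [hfil]⟩
          · have : (l : ℕ) ≠ k := fun h => hl0 (Fin.ext h)
            exact hB3 l hl (by omega)
      · refine ⟨B, fun i hi => (hB1 i hi).trans (Nat.lt_succ_self _), hB2, ?_⟩
        intro l hl _
        exact hB3 l hl (by have := l.2; omega)
  obtain ⟨B, -, h2, h3⟩ := main n
  exact ⟨B, h2, fun l hl => h3 l hl l.2⟩

/-- Pigeonhole principle for minimal primes along an increasing sequence of ideals. -/
theorem exists_minimalPrime_step {A : Type*} [CommRing A] (n : ℕ) :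
    ∀ (J : ℕ → Ideal A) (_ : Monotone J) (p : Ideal A) [p.IsPrime] (_ : p.height ≤ n)
      (N : ℕ) (_ : n + 1 ≤ N) (_ : J N ≤ p),
      ∃ i < N, ∃ q ∈ (J i).minimalPrimes, J (i + 1) ≤ q ∧ q ≤ p := by
  induction n with
  | zero =>
    intro J hJ p _ hp N hN hJp
    obtain ⟨N, rfl⟩ : ∃ N', N = N' + 1 := ⟨N - 1, by omega⟩
    obtain ⟨q, hq, hqp⟩ := Ideal.exists_minimalPrimes_le ((hJ (Nat.le_succ N)).trans hJp)
    refine ⟨N, Nat.lt_succ_self _, q, hq, ?_, hqp⟩
    by_contra hcon
    have : q.IsPrime := hq.1.1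
    have hlt : q < p := lt_of_le_of_ne hqp (by rintro rfl; exact hcon hJp)
    have : p.FiniteHeight := ⟨Or.inr (ne_top_of_le_ne_top (ENat.natCast_ne_top _) hp)⟩
    have := (Ideal.height_strict_mono_of_isPrime_of_isPrime hlt).trans_le hp
    simp at this
  | succ n ih =>
    intro J hJ p _ hp N hN hJp
    obtain ⟨N, rfl⟩ : ∃ N', N = N' + 1 := ⟨N - 1, by omega⟩
    obtain ⟨q, hq, hqp⟩ := Ideal.exists_minimalPrimes_le ((hJ (Nat.le_succ N)).trans hJp)
    by_cases hcon : J (N + 1) ≤ q
    · exact ⟨N, Nat.lt_succ_self _, q, hq, hcon, hqp⟩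
    have : q.IsPrime := hq.1.1
    have hlt : q < p := lt_of_le_of_ne hqp (by rintro rfl; exact hcon hJp)
    have : p.FiniteHeight := ⟨Or.inr (ne_top_of_le_ne_top (ENat.natCast_ne_top _) hp)⟩
    have h1 := (Ideal.height_strict_mono_of_isPrime_of_isPrime hlt).trans_le hp
    have h2 : q.height ≤ n := by
      rw [Nat.cast_succ] at h1
      exact Order.le_of_lt_add_one h1
    obtain ⟨i, hi, r, hr, hr1, hr2⟩ := ih J hJ q h2 N (by omega) hq.1.2
    exact ⟨i, by omega, r, hr, hr1, hr2.trans hqp⟩

theorem height_le_card {n : ℕ} (p : Ideal (MvPolynomial (Fin n) ℂ)) [p.IsPrime] :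
    p.height ≤ n := by
  have h := Ideal.height_le_ringKrullDim_of_isPrime (I := p)
  rw [MvPolynomial.ringKrullDim_of_isNoetherianRing, ringKrullDim_eq_zero_of_field] at h
  simp only [Nat.card_eq_fintype_card, Fintype.card_fin, zero_add] at h
  exact_mod_cast h

end Vale.Agent.P021Z.Key
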